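import Vale.Agent.P283R.Tp.St
import Vale.Agent.P283R.Et.Top

/-!
# P283R, bounded embedding dimension: the interface and the tier statement
-/

open Set

noncomputable section

namespace Vale.Agent.P283R.Bx

open Vale.Agent.P287D

section

variable {F : Type} [Field F] [Algebra ℂ F]

/-- the local ring at `q` has embedding dimension at most `E` -/
def Emd (E : ℕ) (S : Subalgebra ℂ F) (q : Ideal S) : Prop :=
  ∃ z : Fin E → S, (∀ j, z j ∈ q) ∧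
    ∀ a ∈ q, ∃ c : Fin E → F, (∀ j, c j ∈ Lo S q) ∧ (a : F) = ∑ j, c j * z j

/-- `Q (K + B) = div h` near `q` -/
def Crt (Q : ℕ) (S : Subalgebra ℂ F) (q : Ideal S) (m : ℕ) (g h : F) : Prop :=
  h ≠ 0 ∧ ∀ R, PDat S q R → (R.ord g : ℝ) / m = R.ord h / Q

end

/-- **ABE**: normal varieties of bounded embedding dimension, up to bounded index -/
def ABE : Prop := ∀ (N E Q : ℕ) (ε : ℝ), 0 < Q → 0 < ε → ∃ J : ℕ, Unif Q fun n =>
  ∀ (F : Type) [Field F] [Algebra ℂ F] (G : Subgroup (F ≃ₐ[ℂ] F)) (S : Subalgebra ℂ F)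
    (p q : Ideal S) (y : Fin N → F) (m : ℕ) (g h : F), Pr N G S y m g → p.IsPrime →
    q.IsMaximal → p ≤ q → Emd E S q → Crt Q S q m g h → (∀ R, PDat S q R → ld y m g R ≤ 1) →
    (∀ q₀ : Ideal S, q₀ ≤ q → Hyp ε G S q₀ y m g) →
    ∃ A, Idx J G A S p ∧ Sol n A S p (PDat S p) y m g

/-- the tier statement for a given index `N` -/
def Be (d E Q : ℕ) (ε : ℝ) (N : ℕ) : Prop :=
  ∀ (K L : Type) [Field K] [Algebra ℂ K] [Field L] [Algebra ℂ L] [Algebra K L]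
    [IsScalarTower ℂ K L] (G : Subgroup (L ≃ₐ[ℂ] L)) (S : Subalgebra ℂ L) (A : Subalgebra ℂ K)
    (χ : A →ₐ[ℂ] ℂ) (m : ℕ) (g : K) (h : L), FF K d → Gq d G S A →
    (∀ q : Ideal S, q.IsMaximal → Emd E S q) → 0 < m → g ≠ 0 →
    (∀ P, Thr A χ P → ε ≤ 1 + dsc d ((m : ℝ)⁻¹ • dv g) P) →
    (∀ P, Thr A χ P → Prm A P → dsc d ((m : ℝ)⁻¹ • dv g) P ≤ 0) → h ≠ 0 →
    (∀ (R : Pl L) (P : Pl K), PD S R → Lies (algebraMap K L) R P → Thr A χ P →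
      (P.ord g : ℝ) / m = R.ord h / Q) → Et.Con d N A χ m g

/-- **the tier statement** -/
def Qe : Prop :=
  ∀ d E Q : ℕ, 1 ≤ d → 1 ≤ Q → ∀ ε : ℝ, 0 < ε → ∃ N : ℕ, 1 ≤ N ∧ Be d E Q ε N

end Vale.Agent.P283R.Bx
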