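import Vale.Agent.P283R.Tp.Quo
import Vale.Agent.P283R.Bx.St

/-!
# P283R, bounded embedding dimension: the cover in the words of the tier
-/

set_option linter.all false

open Set

noncomputable section

namespace Vale.Agent.P283R.Bx

open Vale.Agent.P287D Vale.Agent.P297Z
open Vale.Agent.P283R.Qu (im)

variable {K L S : Type} [Field K] [Algebra ℂ K] [Field L] [Algebra ℂ L] [Algebra K L]
  [CommRing S] [Algebra ℂ S] {q : S →ₐ[ℂ] L} {G : Subgroup (S ≃ₐ[ℂ] S)} {A : Subalgebra ℂ K}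

/-- `Spec A = Y / G`, `Y = Spec S` normal -/
structure Cov (q : S →ₐ[ℂ] L) (G : Subgroup (S ≃ₐ[ℂ] S)) (A : Subalgebra ℂ K) : Prop where
  ft : Algebra.FiniteType ℂ S
  inj : Function.Injective q
  frL : ∀ b : L, ∃ s t, q t ≠ 0 ∧ b = q s / q t
  nor : ∀ b : L, IsIntegral q.range b → b ∈ q.range
  fin : Finite G
  free : ∀ g ∈ G, g ≠ 1 → ∀ p : Ideal S, p.IsPrime → (∀ s, g s - s ∈ p) → 2 ≤ p.height
  inv : ∀ b : L, (∃ a ∈ A, algebraMap K L a = b) ↔ ∃ s, (∀ g ∈ G, q (g s) = q s) ∧ q s = b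
  frK : ∀ a : K, ∃ b ∈ A, ∃ b' ∈ A, b' ≠ 0 ∧ a = b / b'

theorem Cov.stab (h : Cov q G A) : ∀ g ∈ G, ∀ s, q s = 0 → q (g s) = 0 := fun g _ s e => by
  rw [(map_eq_zero_iff q h.inj).1 e, map_zero, map_zero]

namespace Cv

theorem frac (h : Cov q G A) : IsFractionRing q.range L :=
  IsFractionRing.of_field _ _ fun b =>
    let ⟨s, t, _, e⟩ := h.frL b; ⟨⟨_, s, rfl⟩, ⟨_, t, rfl⟩, e⟩

theorem ext (h : Cov q G A) {σ τ : L →ₐ[ℂ] L} (e : ∀ s, σ (q s) = τ (q s)) : σ = τ :=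
  AlgHom.ext fun b => by
    obtain ⟨s, t, -, rfl⟩ := h.frL b
    rw [map_div₀, map_div₀, e, e]

theorem hom (h : Cov q G A) {g : S ≃ₐ[ℂ] S} (hg : g ∈ G) :
    ∃ σ : L →ₐ[ℂ] L, ∀ s, σ (q s) = q (g s) := by
  have := frac h
  let φ : q.range →ₐ[ℂ] L := AlgHom.liftOfSurjective q.rangeRestrict q.rangeRestrict_surjective
    (q.comp g.toAlgHom) fun s hs => h.stab g hg s (congrArg Subtype.val hs)
  have e : ∀ s, φ (q.rangeRestrict s) = q (g s) := fun s =>
    AlgHom.liftOfSurjective_apply _ _ _ _ s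
  have i : Function.Injective φ := (injective_iff_map_eq_zero φ).2 fun a ha => by
    obtain ⟨s, rfl⟩ := q.rangeRestrict_surjective a
    have := h.stab g⁻¹ (inv_mem hg) _ ((e s).symm.trans ha)
    exact Subtype.ext ((congrArg q (g.symm_apply_apply s)).symm.trans this)
  exact ⟨IsFractionRing.liftAlgHom i, fun s =>
    (IsFractionRing.lift_algebraMap i (q.rangeRestrict s)).trans (e s)⟩

theorem aut (h : Cov q G A) {g : S ≃ₐ[ℂ] S} (hg : g ∈ G) :
    ∃ σ : L ≃ₐ[ℂ] L, ∀ s, σ (q s) = q (g s) := by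
  obtain ⟨σ, a⟩ := hom h hg
  obtain ⟨τ, b⟩ := hom h (inv_mem hg)
  exact ⟨.ofAlgHom σ τ (ext h fun s => by
      rw [AlgHom.comp_apply, b, a]; exact congrArg q (g.apply_symm_apply s))
    (ext h fun s => by
      rw [AlgHom.comp_apply, a, b]; exact congrArg q (g.symm_apply_apply s)), a⟩

theorem fin (h : Cov q G A) : Finite (im q G) := by
  have := h.fin
  choose σ hσ using fun g : G => aut h g.2
  refine Finite.of_surjective (fun g : G => (⟨σ g, g, g.2, hσ g⟩ : im q G)) ?_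
  rintro ⟨τ, g, a, b⟩
  exact ⟨⟨g, a⟩, Subtype.ext (AlgEquiv.coe_algHom_injective
    (ext h fun s => (hσ ⟨g, a⟩ s).trans (b s).symm))⟩

theorem fix_of (h : Cov q G A) (a : K) : Fix (im q G) (algebraMap K L a) := by
  rintro σ ⟨g, hg, e⟩
  have k : ∀ b ∈ A, σ (algebraMap K L b) = algebraMap K L b := fun b hb => by
    obtain ⟨s, x, y⟩ := (h.inv _).1 ⟨b, hb, rfl⟩
    rw [← y, e, x g hg]
  obtain ⟨b, hb, b', hb', -, rfl⟩ := h.frK a
  rw [map_div₀, map_div₀, k b hb, k b' hb']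

theorem of_fix (h : Cov q G A) {s : S} (e : Fix (im q G) (q s)) :
    ∃ a ∈ A, algebraMap K L a = q s :=
  (h.inv _).2 ⟨s, fun g hg => let ⟨σ, a⟩ := aut h hg; (a s).symm.trans (e σ ⟨g, hg, a⟩), rfl⟩

theorem fix (h : Cov q G A) (b : L) : Fix (im q G) b ↔ b ∈ range (algebraMap K L) := by
  classical
  refine ⟨fun e => ?_, by rintro ⟨a, rfl⟩; exact fix_of h a⟩
  have := h.fin
  have := Fintype.ofFinite G
  obtain ⟨s, t, t0, rfl⟩ := h.frL b
  have n : Fix (im q G) (q (∏ g : G, g.1 t)) := by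
    rintro σ ⟨g, hg, k⟩
    rw [k, map_prod g]
    exact congrArg q (Fintype.prod_equiv (Equiv.mulLeft (⟨g, hg⟩ : G)) _ _ fun _ => rfl)
  have n0 : q (∏ g : G, g.1 t) ≠ 0 := by
    rw [map_prod]
    exact Finset.prod_ne_zero_iff.2 fun g _ z => t0
      ((congrArg q (g.1.symm_apply_apply t)).symm.trans (h.stab g.1⁻¹ (inv_mem g.2) _ z))
  have m : q s / q t * q (∏ g : G, g.1 t) = q (s * ∏ g ∈ Finset.univ.erase (1 : G), g.1 t) := by
    rw [← Finset.mul_prod_erase _ _ (Finset.mem_univ (1 : G)), map_mul, map_mul, ← mul_assoc]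
    exact congrArg (· * _) (div_mul_cancel₀ _ t0)
  obtain ⟨a, -, ha⟩ := of_fix h n
  obtain ⟨a', -, ha'⟩ := of_fix h (s := s * ∏ g ∈ Finset.univ.erase (1 : G), g.1 t)
    fun σ hσ => by rw [← m, map_mul, e σ hσ, n σ hσ]
  exact ⟨a' / a, by rw [map_div₀, ha, ha', ← m, mul_div_cancel_right₀ _ n0]⟩

theorem fd (h : Cov q G A) : FiniteDimensional K L := by
  have := fin h
  let φ : K →+* FixedPoints.subfield (im q G) L :=
    (algebraMap K L).codRestrict _ fun a σ => fix_of h a σ.1 σ.2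
  let _ := φ.toAlgebra
  have : IsScalarTower K (FixedPoints.subfield (im q G) L) L := .of_algebraMap_eq fun _ => rfl
  have : Module.Finite K (FixedPoints.subfield (im q G) L) :=
    .of_surjective (Algebra.linearMap _ _) fun b =>
      let ⟨a, e⟩ := (fix h b.1).1 fun σ hσ => b.2 ⟨σ, hσ⟩; ⟨a, Subtype.ext e⟩
  exact Module.Finite.trans (FixedPoints.subfield (im q G) L) L

theorem free (h : Cov q G A) (p : Ideal q.range) (R : Pl L) (a : Cen q.range p R)
    (b : ∀ a ∈ R.ring, a ∈ Lo q.range p) (σ : L ≃ₐ[ℂ] L) (hσ : σ ∈ im q G)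
    (i : Inr q.range p σ) : σ = 1 := by
  classical
  obtain ⟨g, hg, e⟩ := hσ
  by_cases g1 : g = 1
  · exact AlgEquiv.coe_algHom_injective (ext h fun s => (e s).trans (by rw [g1]; rfl))
  exfalso
  have := h.ft
  have : IsNoetherianRing S := Algebra.FiniteType.isNoetherianRing ℂ S
  have : IsDomain S := h.inj.isDomain q.toRingHom
  have m : ∀ s, q s ∈ R.ring := fun s => (a (q.rangeRestrict s)).1
  have z : ∀ s, s ∈ p.comap q.rangeRestrict ↔ q s = 0 ∨ 0 < R.ord (q s) := fun s =>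
    (a (q.rangeRestrict s)).2.trans (Bm.rd_zero_iff R (m s))
  have pr : (p.comap q.rangeRestrict).IsPrime := by
    refine ⟨(Ideal.ne_top_iff_one _).2 fun k => ?_, fun {x y} k => ?_⟩
    · rw [z, map_one, Pl.ord_one] at k
      simp at k
    · have := (a (q.rangeRestrict (x * y))).2.1 k
      change R.rd (q (x * y)) = 0 at this
      rw [map_mul, Bm.rd_mul R (m x) (m y), mul_eq_zero] at this
      exact this.imp (a (q.rangeRestrict x)).2.2 (a (q.rangeRestrict y)).2.2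
  have kz : ∀ (J : Ideal S) s, q s = 0 → s ∈ J := fun J s e =>
    (map_eq_zero_iff q h.inj).1 e ▸ J.zero_mem
  have ht := h.free g hg g1 _ pr fun s => by
    obtain ⟨u, hu, k⟩ := i (q.rangeRestrict s)
    change σ (q s) - q s = u at k
    rw [e, ← map_sub] at k
    exact Ideal.mem_comap.2 ((Subtype.ext k : q.rangeRestrict (g s - s) = u) ▸ hu)
  by_cases w : ∃ x ∈ p.comap q.rangeRestrict, q x ≠ 0
  swap
  · rw [show p.comap q.rangeRestrict = ⊥ from eq_bot_iff.2 fun x hx =>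
      kz ⊥ x (by_contra fun k => w ⟨x, hx, k⟩), Ideal.height_bot] at ht
    simp at ht
  obtain ⟨x, hx, x0⟩ := w
  have mp : p.comap q.rangeRestrict ∈ (Ideal.span (({x} : Finset S) : Set S)).minimalPrimes := by
    rw [Finset.coe_singleton]
    refine ⟨⟨pr, (Ideal.span_singleton_le_iff_mem _).2 hx⟩, fun J hJ k y hy => ?_⟩
    rcases eq_or_ne (q y) 0 with y0 | y0
    · exact kz J _ y0
    have o := ((z y).1 hy).resolve_left y0
    have ox := Pl.ord_nonneg_of_mem _ (m x)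
    have r : q y ^ (R.ord (q x)).toNat / q x ∈ R.ring :=
      (Pl.ord_nonneg_iff _ (div_ne_zero (pow_ne_zero _ y0) x0)).1 (by
        rw [Pl.ord_div _ (pow_ne_zero _ y0) x0, Pl.ord_pow, Int.toNat_of_nonneg ox]
        nlinarith)
    obtain ⟨u, v, v0, uv⟩ := b _ r
    obtain ⟨u, rfl⟩ := q.rangeRestrict_surjective u
    obtain ⟨v, rfl⟩ := q.rangeRestrict_surjective v
    have v1 : q v ≠ 0 := fun c => v0 ((z v).2 (.inl c))
    have : v * y ^ (R.ord (q x)).toNat - u * x ∈ J := kz J _ (by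
      change _ = q u / q v at uv
      rw [div_eq_div_iff x0 v1] at uv
      rw [map_sub, map_mul, map_mul, map_pow, ← uv, mul_comm, sub_self])
    have := add_mem this (J.mul_mem_left u (hJ.2 (Ideal.mem_span_singleton_self x)))
    rw [sub_add_cancel] at this
    exact hJ.1.mem_of_pow_mem _ ((hJ.1.mem_or_mem this).resolve_left fun c => v0 (k c))
  have := ht.trans (Ideal.height_le_card_of_mem_minimalPrimes_span_finset mp)
  rw [Finset.card_singleton] at this
  exact absurd (by exact_mod_cast this : 2 ≤ 1) (by omega)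

theorem gq [IsScalarTower ℂ K L] {d : ℕ} (hK : FF K d) (h : Cov q G A) :
    Gq d (im q G) q.range A := by
  have := h.ft
  have := fd h
  have := frac h
  refine ⟨⟨Hd.ff_up hK, ?_, fun b => let ⟨s, t, _, e⟩ := h.frL b; ⟨⟨_, s, rfl⟩, ⟨_, t, rfl⟩, e⟩⟩,
    (isIntegrallyClosed_iff L).2 fun {b} hb => ⟨⟨b, h.nor b hb⟩, rfl⟩, fin h, ?_, fix h,
    fun a => ⟨fun ha => ?_, fun ⟨s, hs⟩ => ?_⟩, free h⟩
  · rw [← Algebra.map_top]
    exact Subalgebra.FG.map _ Algebra.FiniteType.out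
  · rintro σ ⟨g, -, e⟩ _ ⟨s, rfl⟩
    exact ⟨g s, (e s).symm⟩
  · obtain ⟨s, -, e⟩ := (h.inv _).1 ⟨a, ha, rfl⟩
    exact ⟨s, e⟩
  · have hs : q s = algebraMap K L a := hs
    obtain ⟨b, hb, e⟩ := of_fix h (s := s) (hs ▸ fix_of h a)
    exact (algebraMap K L).injective (e.trans hs) ▸ hb

theorem emd {N : ℕ} (h : Cov q G A)
    (e : ∀ m : Ideal S, m.IsMaximal → ∃ z : Fin N → S, m = Ideal.span (range z) ⊔ m ^ 2)
    (p : Ideal q.range) (hp : p.IsMaximal) : Emd N q.range p := by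
  have := h.ft
  have : IsNoetherianRing S := Algebra.FiniteType.isNoetherianRing ℂ S
  have mx := Ideal.comap_isMaximal_of_surjective q.rangeRestrict q.rangeRestrict_surjective (K := p)
  obtain ⟨z, hz⟩ := e _ mx
  obtain ⟨t, t1, t2⟩ := Submodule.exists_sub_one_mem_and_smul_le_of_fg_of_le_sup
    (I := p.comap q.rangeRestrict) (N := Ideal.span (range z)) (IsNoetherian.noetherian _) le_rfl
    (hz.trans_le (by rw [sq]; rfl))
  have t0 : q.rangeRestrict t ∉ p := fun k => mx.ne_top ((Ideal.eq_top_iff_one _).2 (by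
    simpa using sub_mem (show t ∈ p.comap q.rangeRestrict from k) t1))
  have t3 : q t ≠ 0 := fun k => t0 ((Subtype.ext k : q.rangeRestrict t = 0) ▸ p.zero_mem)
  refine ⟨fun j => q.rangeRestrict (z j), fun j => hz.ge (Ideal.mem_sup_left
    (Ideal.subset_span ⟨j, rfl⟩)), fun a ha => ?_⟩
  obtain ⟨a, rfl⟩ := q.rangeRestrict_surjective a
  obtain ⟨c, hc⟩ := Ideal.mem_span_range_iff_exists_fun.1
    (t2 (Submodule.smul_mem_pointwise_smul a t _ ha))
  refine ⟨fun j => q (c j) / q t, fun j => ⟨q.rangeRestrict _, _, t0, rfl⟩, ?_⟩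
  change q a = ∑ j, q (c j) / q t * q (z j)
  simp only [div_mul_eq_mul_div, ← Finset.sum_div, ← map_mul, ← map_sum, hc]
  rw [smul_eq_mul, map_mul, mul_div_cancel_left₀ _ t3]

end Cv

end Vale.Agent.P283R.Bx
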