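import Vale.Agent.P283R.Bx.St
import Vale.Agent.P283R.All
import Vale.Agent.P283R.Mi.Topu

/-!
# P283R, bounded embedding dimension: the top of the chain
-/

set_option linter.all false

open Set

noncomputable section

namespace Vale.Agent.P283R.Bx

open Vale.Agent.P287D Vale.Agent.P283R.Tq

theorem top (ha : ABE) : Qe := by
  intro d E Q hd hQ ε hε
  obtain ⟨J, n₀, hn₀, ha⟩ := ha d E Q ε hQ hε
  have hn : 2 ≤ 2 * (n₀ * Q) := Nat.le_mul_of_pos_right _ (Nat.mul_pos hn₀ hQ)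
  refine ⟨2 * (n₀ * Q) * J.factorial, Nat.mul_pos (by omega) J.factorial_pos, ?_⟩
  intro K L _ _ _ _ _ _ G S A χ m g h hK hG em hm hg h1 h2 h0 h3
  obtain ⟨y, D, hy, hcn⟩ := Cb.exists_cn hK
  have hP := pr ram hK hG ⟨D, hy⟩ hm hg
  refine core ram nt Fin.one fre hK hG ⟨D, hy⟩ hcn hm hg hn fun p hp pp => ?_
  obtain ⟨r, hr, r1, r2⟩ := Mi.exists_max fre hG hp pp
  refine ha _ (by omega) ⟨2 * Q, by ring⟩ ⟨2 * n₀, by ring⟩ L G S p r _ m _ h hP pp r1 r2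
    (em r r1) ⟨h0, fun R hR => ?_⟩ (fun R hR => ?_)
    fun p' e => hyp ram hK hG ⟨D, hy⟩ hcn hε h1 (W.mono hr e)
  · obtain ⟨P, l, e1, e2, e3, -⟩ := ld_pd ram fre hK hG ⟨D, hy⟩ hcn m g hr hR
    obtain ⟨q', -, c1, c2⟩ := hR
    rw [← h3 R P ⟨q', c1, c2⟩ l e1, l.ord g, e3, one_mul]
  · obtain ⟨P, l, e1, e2, e3, e4⟩ := ld_pd ram fre hK hG ⟨D, hy⟩ hcn m g hr hR
    have := h2 P e1 e2
    linarith

end Vale.Agent.P283R.Bx
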