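import Vale.Agent.P283R.Bx.Cov
import Vale.Agent.P283R.Bx.Top
import Vale.Agent.P283R.Et.Br
import Vale.Agent.P283R.Sl.Un
import Vale.Agent.P283R.Sl.Em

/-!
# P283R, bounded embedding dimension: from the tier to the scheme statement
-/

set_option linter.all false

open Set CategoryTheory AlgebraicGeometry
open Vale.Agent.P289 Vale.Agent.P289.H219 Vale.Agent.P270L Vale.Agent.P283M.Am Vale.Agent.P299.G

noncomputable section

namespace Vale.Agent.P283R.Bx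

open Vale.Agent.P287D Vale.Agent.P283M Vale.Agent.P283M.Br Vale.Agent.P283M.Stm.Var
open Vale.Agent.P283M.Stm (Contraction Pair HasKltComplement)
open Vale.Agent.P297Z Vale.Agent.P283R.Br Vale.Agent.P283R.Et

theorem cov {N : ℕ} {W : Stm.Var} {w : Pt W.X} {U : W.X.Opens} (hU : IsAffineOpen U) (hw : w ∈ U)
    {S : Type} [CommRing S] [IsDomain S] [Algebra ℂ S] {G : Subgroup (S ≃ₐ[ℂ] S)}
    {i : W.K →ₐ[ℂ] FractionRing S} (l : Sl.IsCover N {a : W.K | ∀ x ∈ U, RegAt a x} G i)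
    {A : Subalgebra ℂ W.K} {χ : A →ₐ[ℂ] ℂ} (h : Bs (𝟙 W.X) (RingEquiv.refl W.K) U w A χ) :
    letI := alg (RingEquiv.refl W.K) i
    Cov (IsScalarTower.toAlgHom ℂ S (FractionRing S)) G A := by
  let _ := alg (RingEquiv.refl W.K) i
  let j : S →ₐ[ℂ] FractionRing S := IsScalarTower.toAlgHom ℂ _ _
  have hj : Function.Injective j := IsFractionRing.injective S _
  have := l.normal
  refine ⟨l.finiteType, hj, fun b => ?_, fun b hb => ?_, l.finite, l.free, fun b => ?_,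
    h.frK hU hw⟩
  · obtain ⟨s, t, t0, rfl⟩ := IsFractionRing.div_surjective (A := S) b
    exact ⟨s, t, (map_ne_zero_iff j hj).2 (nonZeroDivisors.ne_zero t0), rfl⟩
  · let e := AlgEquiv.ofInjective j hj
    have := hb.map_of_comp_eq (e.symm : j.range →+* S) (RingHom.id _)
      (RingHom.ext fun a => congrArg Subtype.val (e.apply_symm_apply a))
    exact IsIntegrallyClosed.isIntegral_iff.1 this
  · refine Iff.trans (Iff.trans ⟨?_, ?_⟩ (l.inv b)) (exists_congr fun s => and_congr_left'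
      (forall₂_congr fun g _ => hj.eq_iff.symm))
    · rintro ⟨a, ha, rfl⟩
      exact ⟨a, (h.memZ _).1 ha, rfl⟩
    · rintro ⟨a, ha, rfl⟩
      exact ⟨a, (h.memZ _).2 ha, rfl⟩

/-- **the glue** for a given index -/
theorem glue {d E Q N : ℕ} {ε : ℝ} (hd : 1 ≤ d) (hε : 0 < ε) (hQ : 1 ≤ Q) (N1 : 1 ≤ N)
    (hN : Be d E Q ε N) {X Z W : Stm.Var} {f : X.X ⟶ Z.X} {ω : DForm ℂ X.K d} {B : X.QDiv}
    {D : Z.PrimeDiv → ℚ} {π : W.X ⟶ Z.X} {x : Pt W.X} (hdim : dimension X.str = d)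
    (hω : ω.Nonzero) (hB : Pair (ε ≤ ·) ⊤ ω B) (hf : Contraction f) (hp : P283R.Stm.Birational f)
    (hg : ∃ m g, 0 < m ∧ ∀ y : Pt X.X, y.map f = x.map π → LocalEq (logCan ω B) m g y)
    (hz : IsClosed ({x.map π} : Set (Pt Z.X)))
    (hD : ∀ (E : X.PrimeDiv) (y : Z.PrimeDiv), E.1.map f = y.1 → B E = D y)
    {D' : W.PrimeDiv → ℚ} {η : DForm ℂ W.K d} {U : W.X.Opens} {r : ℕ} {a : W.K} {S : Type}
    [CommRing S] [Algebra ℂ S] [IsDomain S] [Etale π] (he : π ≫ Z.str = W.str)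
    (wc : IsClosed ({x} : Set (Pt W.X)))
    (hD' : ∀ (E : W.PrimeDiv) (y : Z.PrimeDiv), E.1.map π = y.1 → D' E = D y) (η0 : η.Nonzero)
    (hU : IsAffineOpen U) (zU : x ∈ U) (r0 : 0 < r) (ha : LocalEq (logCan η 0 + D') r a x)
    {G : Subgroup (S ≃ₐ[ℂ] S)} {i : W.K →ₐ[ℂ] FractionRing S}
    (l : Sl.IsCover E {a : W.K | ∀ x ∈ U, RegAt a x} G i) {s : FractionRing S} {u : Sˣ}
    (e : i a ^ Q = algebraMap S _ u * s ^ r) : HasKltComplement f ω B (2 * N) (x.map π) := by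
  obtain ⟨p, hp⟩ := hp
  obtain ⟨m, g, m0, hg⟩ := hg
  obtain ⟨A, χ, bs⟩ := exists_bs ctr_id pb_id hU zU wc
  let _ := alg (RingEquiv.refl W.K) i
  have := alg_tower (p := RingEquiv.refl W.K) i fun _ => rfl
  have hq := cov hU zU l bs
  have a0 : i a ≠ 0 := (map_ne_zero i).2 ha.1
  have u0 : algebraMap S (FractionRing S) u ≠ 0 := (u.isUnit.map _).ne_zero
  have s0 : s ≠ 0 := fun k => pow_ne_zero Q a0 (by rw [e, k, zero_pow r0.ne', mul_zero])
  refine coreE hd hε hdim hω hB hf hp m0 hg hz he hU zU bs N1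
    fun hK g g0 h1 h2 => ?_
  obtain ⟨h, h0, fr⟩ := frm W _ hK η η0
  have h3 : i h ≠ 0 := (map_ne_zero i).2 h0
  have hG := Cv.gq hK hq
  refine hN W.K _ _ _ A χ m g (s / i h ^ Q) hK hG (Cv.emd hq l.embdim) m0 g0 h1
    (fun P hP k => ?_) (div_ne_zero s0 (pow_ne_zero _ h3)) fun R P c k hP => ?_
  · obtain ⟨E, -, -, -, -, -, -, e⟩ := h2 P hP k
    rw [e, neg_nonpos]
    exact_mod_cast hB.1 E trivial
  obtain ⟨k1, k2⟩ := (fre d _ _ _ _ A hG).1 R P c k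
  obtain ⟨E, y, y₀, e0, e1, e2, e3, e4⟩ := h2 P hP k1
  obtain ⟨P', i1, i2⟩ := pl_of plc y
  obtain rfl : P' = P := Pl.ext' (congrArg _ (Pl.eq_of_le' (v := P'.toPlace) (w := P.toPlace)
    fun b hb => by
      rcases eq_or_ne b 0 with rfl | b0
      · exact zero_mem _
      exact (Pl.ord_nonneg_iff _ b0).1 (e3 b ▸ i2 b ▸ Pl.ord_nonneg_of_mem _ hb)))
  have f1 := fr _ _ y P' i1 i2
  have f2 : ((ord a y : ℤ) : ℚ) = r * ((formOrd η (RingEquiv.refl W.K) y : ℚ) + 0 + D' y) :=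
    ha.2 y e2
  have f3 : (P'.ord a : ℝ) = r * ((formOrd η (RingEquiv.refl W.K) y : ℝ) + (B E : ℝ)) := by
    rw [hD E y₀ e0, ← hD' y y₀ e1, ← i2]
    rw [add_zero] at f2
    exact_mod_cast f2
  obtain ⟨c1, c2, -⟩ := c
  have m1 : ∀ v : S, 0 ≤ R.ord (algebraMap S (FractionRing S) v) := fun v =>
    Pl.ord_nonneg_of_mem _ (c2 ⟨_, v, rfl⟩).1
  have v0 : R.ord (algebraMap S (FractionRing S) u) = 0 := by
    have := Pl.ord_mul R.toPlace u0 (u⁻¹.isUnit.map (algebraMap S (FractionRing S))).ne_zero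
    rw [← map_mul, u.mul_inv, map_one, Pl.ord_one] at this
    have := m1 u
    have := m1 u⁻¹.1
    omega
  have v := congrArg R.ord e
  have o : ∀ b, R.ord (i b) = P'.ord b := fun b => by
    have := k.ord b
    rwa [k2, one_mul] at this
  rw [Pl.ord_mul _ u0 (pow_ne_zero _ s0), v0, Pl.ord_pow, Pl.ord_pow, o, zero_add] at v
  have v' : (Q : ℝ) * P'.ord a = r * R.ord s := by exact_mod_cast v
  have rR : (r : ℝ) ≠ 0 := Nat.cast_ne_zero.2 r0.ne'
  have QR : (Q : ℝ) ≠ 0 := Nat.cast_ne_zero.2 (by omega)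
  rw [f3, mul_left_comm, mul_right_inj' rR, f1] at v'
  simp only [dsc, Pi.sub_apply, Pi.smul_apply, dv, smul_eq_mul] at e4
  rw [Pl.ord_div _ s0 (pow_ne_zero _ h3), Pl.ord_pow, o, eq_div_iff QR, div_eq_inv_mul]
  push_cast
  linear_combination v' - Q * e4

end Vale.Agent.P283R.Bx

namespace Vale.Agent.P283R.Sl

open Var

/-- bounded embedding dimension -/
theorem on_emb (h : Bx.Qe) (N : ℕ) {q : ℕ} (hq : 1 ≤ q) :
    On fun d _ Z f ω B z => Crepant f ω B z ∧ ∃ D, SameCoeff f B.coeff D ∧ EmbSing d N q Z z D := by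
  intro d hd ε hε R hR
  obtain ⟨n, hn, H⟩ := h d N q hd hq ε hε
  refine ⟨2 * n, by omega, fun X Z f ω B z a b c _ s t u => (has_iff f ω B _ z).2 ?_⟩
  obtain ⟨u1, D, u2, W, π, x, D', η, U, r, a', S, _, _, ⟨_, he, rfl, wc⟩, hD', η0, hU, zU, r0, ha,
    G, i, l, s', v, e⟩ := u
  have := l.domain
  exact Bx.glue (X := X.o) (Z := Z.o) (W := W.o) hd hε hq hn H a b ((pair_iff _ _ ω B).1 c) s u1.1
    u1.2 t u2 he wc hD' η0 hU zU r0 ha l e

end Vale.Agent.P283R.Sl
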